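import Claimed.Agent.R285.Tilt.Tilt
import Claimed.Agent.R285.Mass.Spin

/-!
# ROW 285, unit TILT, file 2: the BRIDGE `C2.spin_tilt <- Tilt.tl_tilt` (helper164).   No sorry.

`tlBd R = dualBd R` (`mem_tlBd`, `Spin.mem_dualBd`), `x <-> y` (`latTwo_symm`), `exp (lmgf) = E0 exp`, `2π · rw ψ = rot ψ`.
`Read/C2.lean` imports this file.
-/

set_option autoImplicit false
namespace Claimed.Agent.R285.Tilt
open Filter Topology C2 Free Phase Claims.C0459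
open scoped Classical
noncomputable section

theorem tlBd_eq (R : ℕ) : tlBd R = dualBd R := by
  ext e
  rw [mem_tlBd, Spin.mem_dualBd]
  rfl

theorem tl_flowX_rw (Q : Rc) (b : ℝ) (ψ : ℤ × ℤ → ℝ) :
    Q.flowX b (rw ψ) = flowS (Q.sys b) (fun e => rot ψ (domBond (D := Q.set) (cut := ∅) e)) := by
  unfold Rc.flowX rw
  congr 1
  funext e
  have : (2 * Real.pi) ≠ 0 := by positivity
  field_simp

/-- **`C2.spin_tilt`** from `tl_tilt`. -/
theorem tl_spin_tilt (b : ℝ) (hb : 0 < b) (R : ℕ) (x y : ℤ × ℤ) (hx : x ∈ xyBox R) (hy : y ∈ xyBox R) (ψ : ℤ × ℤ → ℝ)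
    {ι : Type} [Fintype ι] (Q : ι → Rc) (hQ : ∀ i, ∀ v ∈ (Q i).set, v ∈ (dualRc R).set ∧ v ∉ ring R)
    (hdis : ∀ i j, i ≠ j → Disjoint (Q i).set (Q j).set) (hsrc : ∀ i, x ∉ (Q i).inner ∧ y ∉ (Q i).inner) :
    latTwo b (xyBox R) x y ≤ Real.exp (ψ x - ψ y)
      * (∏ i, ((Q i).sys b).E0 fun z => Real.exp (flowS ((Q i).sys b) (fun e => rot ψ (domBond (D := (Q i).set) (cut := ∅) e)) z))
      * Real.exp (∑ e ∈ (dualBd R).filter (fun e => ∀ i, e ∉ (Q i).bd), b * (Real.cosh (rot ψ e) - 1)) := by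
  have hsubQ : ∀ i, (Q i).bd ⊆ tlBd R := by
    intro i e he
    obtain ⟨h1, h2⟩ := mem_bd.1 he
    rw [tlBd_eq]
    unfold dualBd
    rw [Finset.mem_filter, mem_bd]
    exact ⟨⟨(hQ i _ h1).1, (hQ i _ h2).1⟩, Or.inl (hQ i _ h1).2⟩
  have hdis' : ∀ i j, i ≠ j → Disjoint (Q i).bd (Q j).bd := fun i j hij =>
    Finset.disjoint_left.2 fun _ h1 h2 => Finset.disjoint_left.1 (hdis i j hij) (mem_bd.1 h1).1 (mem_bd.1 h2).1
  have h := tl_tilt b hb R y x hy hx ψ Q hsubQ hdis' fun i => ⟨(hsrc i).2, (hsrc i).1⟩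
  rw [latTwo_symm] at h
  refine h.trans (le_of_eq ?_)
  rw [Real.exp_add, Real.exp_add, Real.exp_sum]
  unfold tlFree
  rw [tlBd_eq]
  refine congrArg₂ (· * ·) (congrArg₂ (· * ·) rfl ?_) (congrArg Real.exp ?_)
  · refine Finset.prod_congr rfl fun i _ => ?_
    unfold Rc.lmgf
    rw [Real.exp_log (fr_mgf_pos (Q i) b hb _), tl_flowX_rw]
  · refine Finset.sum_congr ?_ fun _ _ => rfl
    ext e
    simp only [Finset.mem_filter]
end
end Claimed.Agent.R285.Tilt
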