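import Claimed.Agent.R285.Phase.Geo
import Claimed.Agent.R285.Xy.Dual

/-!
# ROW 285, unit FREE / TILT, file 1: the tilt inequality = McBryan-Spencer with free cells (finite core of [C]P2.6) (architect helper200).   Paper-free.

## Setting
Spin box `xyBox R = [-R,R]²`.  FACES are indexed by their lower left corner; a DUAL bond `e : Bond` joins two neighbouring faces and crosses exactly one spin bond, oriented from `sSrc e` to `sTgt e`:
  `e = ((i,j),true)`  (faces `(i,j) → (i+1,j)`)  crosses the vertical spin bond   `(i+1,j+1) → (i+1,j)`   (pointing SOUTH),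
  `e = ((i,j),false)` (faces `(i,j) → (i,j+1)`)  crosses the horizontal spin bond `(i,j+1) → (i+1,j+1)`   (pointing EAST).
With these orientations NO SIGN appears: a current `n` on the spin bonds is divergence free at the spin vertex `x` iff the circulation of `n`, read on the dual bonds, around the four faces at `x` vanishes (`tl_curl`), so divergence free currents restrict to GRADIENTS
on every rectangle of faces (`tl_poincare`), in the orientation of `Bond`.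
`spinG R` = the spin graph with edge set `tlBd R` (dual bonds whose spin bond lies in the box).  `C2.rot ψ e = ψ (sSrc e) - ψ (sTgt e)`.

## Proof of `tl_tilt`
`latTwo = spinCh (δ_x - δ_y)` (`tl_spinCh_eq`) `= flowSum(δ_x - δ_y)/flowSum 0` (`xy_flow_ratio`).  If no integral flow `α` has `div α = δ_x - δ_y` the numerator is an empty sum.  Otherwise `= F.w(α)/F.w(0)`, `F = (spinG R).flowSys b` (`xy_duality_lsys`).
`S` = product of the free systems of the cells `Q i` and of all other dual bonds (two-site rectangles): `tl_ref : Ref S F`.  `Y = cutX (rot ψ/2π)`: `Y = ∑_e rot ψ_e n_e = ∑_v ψ_v (div n)_v` vanishes on `F.L` (`hg_sbp`).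
`lsys_ratio_mono`: `F.w α/F.w 0 = F.wT α (Y∘ψ)/F.w 0 ≤ S.wT (res α) Y / S.w 0`.  No source is enclosed by a cell: `res α ∈ S.L`; gauge (`wT_gauge`): `S.wT (res α) Y = e^{-Y(res α)} S.wT 0 Y`, `Y(res α) = ψ x - ψ y`.
`S.wT 0 Y/S.w 0 = ∏ E₀ e^{Y}` (`pi_mgf`); single bonds: `fr_lmgf_ref`.

LEAVES `L-TL-A*`: every `sorry`.
-/

set_option autoImplicit false

namespace Claimed.Agent.R285.Tilt

open Filter Topology C2 Free Phase Claims.C0459
open scoped Classical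

noncomputable section

/-- source of the spin bond crossed by the dual bond `e` -/
def sSrc (e : Bond) : ℤ × ℤ := if e.2 then (e.1.1 + 1, e.1.2 + 1) else (e.1.1, e.1.2 + 1)

/-- target of the spin bond crossed by the dual bond `e` -/
def sTgt (e : Bond) : ℤ × ℤ := if e.2 then (e.1.1 + 1, e.1.2) else (e.1.1 + 1, e.1.2 + 1)

/-- the dual bonds whose spin bond lies in the box -/
def tlBd (R : ℕ) : Finset Bond :=
  ((Finset.Icc (-(R : ℤ) - 1) R ×ˢ Finset.Icc (-(R : ℤ) - 1) R) ×ˢ (Finset.univ : Finset Bool)).filter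
    fun e => sSrc e ∈ xyBox R ∧ sTgt e ∈ xyBox R

/-- the spin graph of the box, edges indexed by the dual bonds -/
def spinG (R : ℕ) : HGraph where
  V := {v : ℤ × ℤ // v ∈ xyBox R}
  E := {e : Bond // e ∈ tlBd R}
  src e := ⟨sSrc e.1, (Finset.mem_filter.1 e.2).2.1⟩
  tgt e := ⟨sTgt e.1, (Finset.mem_filter.1 e.2).2.2⟩

/-- the tilt flow: `flowX b (rw ψ)` is `∑_e rot ψ_e z_e` -/
def rw (ψ : ℤ × ℤ → ℝ) : Bond → ℝ := fun e => rot ψ e / (2 * Real.pi)

/-- the dual bonds of the box which lie in no cell -/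
def tlFree (R : ℕ) {ι : Type} (Q : ι → Rc) : Finset Bond := (tlBd R).filter fun e => ∀ i, e ∉ (Q i).bd

/-- the pieces: the cells and all other dual bonds of the box -/
def tlQ (R : ℕ) {ι : Type} (Q : ι → Rc) : ι ⊕ {e : Bond // e ∈ tlFree R Q} → Rc :=
  Sum.elim Q fun e => bondRc e.1

/-- L-TL-A1. -/
theorem mem_tlBd {R : ℕ} {e : Bond} : e ∈ tlBd R ↔ sSrc e ∈ xyBox R ∧ sTgt e ∈ xyBox R := by
  unfold tlBd
  rw [Finset.mem_filter]
  refine ⟨fun h => h.2, fun h => ⟨?_, h⟩⟩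
  obtain ⟨⟨i, j⟩, d⟩ := e
  obtain ⟨h1, h2⟩ := h
  simp only [xyBox, sSrc, sTgt, Finset.mem_product, Finset.mem_Icc, Finset.mem_univ, and_true] at *
  cases d <;> simp at h1 h2 ⊢ <;> omega

theorem rot_eq (ψ : ℤ × ℤ → ℝ) (e : Bond) : rot ψ e = ψ (sSrc e) - ψ (sTgt e) := by
  unfold rot sSrc sTgt
  split_ifs <;> ring

theorem hg_ph (G : HGraph) (e : G.E) (θ : G.V → ℝ) : xyPh (G.dvec e) θ = θ (G.src e) - θ (G.tgt e) := by
  unfold HGraph.dvec
  rw [xyPh_sub, xyPh_del, xyPh_del]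

theorem tl_sum_split (R : ℕ) (F : Bond → ℝ) :
    ∑ e ∈ tlBd R, F e = ∑ p ∈ rectH (-(R : ℤ)) R (-(R : ℤ)) R, F ((p.1, p.2 - 1), false)
      + ∑ p ∈ rectV (-(R : ℤ)) R (-(R : ℤ)) R, F ((p.1 - 1, p.2), true) := by
  rw [← Finset.sum_filter_add_sum_filter_not (tlBd R) (fun e => e.2 = false)]
  congr 1
  · refine Finset.sum_nbij' (fun e => (e.1.1, e.1.2 + 1)) (fun p => ((p.1, p.2 - 1), false)) ?_ ?_ ?_ ?_ ?_
    · rintro ⟨⟨i, j⟩, d⟩ h
      obtain ⟨h1, h2⟩ := Finset.mem_filter.1 h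
      simp only at h2
      subst h2
      have := mem_tlBd.1 h1
      simp only [xyBox, sSrc, sTgt, rectH, Finset.mem_product, Finset.mem_Icc, Finset.mem_Ico] at *
      simp at this
      omega
    · rintro ⟨i, j⟩ h
      refine Finset.mem_filter.2 ⟨mem_tlBd.2 ?_, rfl⟩
      simp only [xyBox, sSrc, sTgt, rectH, Finset.mem_product, Finset.mem_Icc, Finset.mem_Ico] at *
      simp
      omega
    · rintro ⟨⟨i, j⟩, d⟩ h
      obtain ⟨h1, h2⟩ := Finset.mem_filter.1 h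
      simp only at h2
      subst h2
      simp
    · rintro ⟨i, j⟩ h
      simp
    · rintro ⟨⟨i, j⟩, d⟩ h
      obtain ⟨h1, h2⟩ := Finset.mem_filter.1 h
      simp only at h2
      subst h2
      simp
  · refine Finset.sum_nbij' (fun e => (e.1.1 + 1, e.1.2)) (fun p => ((p.1 - 1, p.2), true)) ?_ ?_ ?_ ?_ ?_
    · rintro ⟨⟨i, j⟩, d⟩ h
      obtain ⟨h1, h2⟩ := Finset.mem_filter.1 h
      simp only [Bool.not_eq_false] at h2
      subst h2
      have := mem_tlBd.1 h1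
      simp only [xyBox, sSrc, sTgt, rectV, Finset.mem_product, Finset.mem_Icc, Finset.mem_Ico] at *
      simp at this
      omega
    · rintro ⟨i, j⟩ h
      refine Finset.mem_filter.2 ⟨mem_tlBd.2 ?_, by simp⟩
      simp only [xyBox, sSrc, sTgt, rectV, Finset.mem_product, Finset.mem_Icc, Finset.mem_Ico] at *
      simp
      omega
    · rintro ⟨⟨i, j⟩, d⟩ h
      obtain ⟨h1, h2⟩ := Finset.mem_filter.1 h
      simp only [Bool.not_eq_false] at h2
      subst h2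
      simp
    · rintro ⟨i, j⟩ h
      simp
    · rintro ⟨⟨i, j⟩, d⟩ h
      obtain ⟨h1, h2⟩ := Finset.mem_filter.1 h
      simp only [Bool.not_eq_false] at h2
      subst h2
      simp

theorem rect_energy_t (x0 x1 y0 y1 : ℤ) (b : ℝ) (θ : latRect x0 x1 y0 y1 → ℝ) (t : ℤ × ℤ → ℝ) (ht : ∀ x, θ x = t x.1) :
    xyEn (rectG x0 x1 y0 y1).dvec (fun _ => b) θ
      = ∑ p ∈ rectH x0 x1 y0 y1, b * Real.cos (t p - t (p.1 + 1, p.2)) + ∑ p ∈ rectV x0 x1 y0 y1, b * Real.cos (t p - t (p.1, p.2 + 1)) := by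
  unfold xyEn
  simp only [HGraph.dvec, xyPh_sub, xyPh_del, ht]
  rw [Fintype.sum_sum_type]
  show (∑ a : rectH x0 x1 y0 y1, b * Real.cos (t a.1 - t (a.1.1 + 1, a.1.2)))
      + (∑ a : rectV x0 x1 y0 y1, b * Real.cos (t a.1 - t (a.1.1, a.1.2 + 1))) = _
  rw [Finset.sum_coe_sort (rectH x0 x1 y0 y1) (fun p => b * Real.cos (t p - t (p.1 + 1, p.2))),
    Finset.sum_coe_sort (rectV x0 x1 y0 y1) (fun p => b * Real.cos (t p - t (p.1, p.2 + 1)))]

theorem tl_energy_eq (b : ℝ) (R : ℕ) (θ : {v : ℤ × ℤ // v ∈ xyBox R} → ℝ) :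
    xyEn (spinG R).dvec (fun _ => b) θ = xyEn xyBond (latJ b (xyBox R)) θ := by
  have h0 := rect_energy_eq (-(R : ℤ)) R (-(R : ℤ)) R b θ
  refine Eq.trans ?_ h0
  obtain ⟨t, ht⟩ : ∃ t : ℤ × ℤ → ℝ, ∀ x : {v : ℤ × ℤ // v ∈ xyBox R}, θ x = t x.1 :=
    ⟨fun p => if h : p ∈ xyBox R then θ ⟨p, h⟩ else 0, fun x => by simp only [dif_pos x.2]⟩
  have L : ∀ e : (spinG R).E, xyPh ((spinG R).dvec e) θ = t (sSrc e.1) - t (sTgt e.1) := fun e =>
    (hg_ph (spinG R) e θ).trans (congrArg₂ (· - ·) (ht _) (ht _))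
  have A : xyEn (spinG R).dvec (fun _ => b) θ = ∑ e : {e : Bond // e ∈ tlBd R}, b * Real.cos (t (sSrc e.1) - t (sTgt e.1)) :=
    Finset.sum_congr rfl fun e _ => by rw [L e]
  have B := rect_energy_t (-(R : ℤ)) R (-(R : ℤ)) R b θ t ht
  rw [A, B, Finset.sum_coe_sort (tlBd R) (fun e => b * Real.cos (t (sSrc e) - t (sTgt e))), tl_sum_split]
  congr 1
  · refine Finset.sum_congr rfl fun p _ => ?_
    simp [sSrc, sTgt]
  · refine Finset.sum_congr rfl fun p _ => ?_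
    rw [← Real.cos_neg]
    simp [sSrc, sTgt]

/-- L-TL-A1.  **The spin graph is the induced subgraph of `ℤ²`.**  `xyChar`, `xyCh` depend on the couplings only through the energy `xyEn`: show `xyEn (spinG R).dvec (fun _ => b) θ = xyEn xyBond (latJ b (xyBox R)) θ` for all `θ`:
every unordered n.n. pair of the box is `{sSrc e, sTgt e}` for exactly one `e ∈ tlBd R`, and appears twice with `b/2` on the right (`cos` is even).  Same statement and proof as XY-D-7 `rect_spinCh_eq` (Xy/Dual.lean) for `rectG`: if that one is proved, transport it by the bijection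
`tlBd R ≃ rectH ⊕ rectV`, `((i,j),true) ↦ inr (i+1,j)`, `((i,j),false) ↦ inl (i,j+1)` (`xyBox R = latRect (-R) R (-R) R` by `rfl`). -/
theorem tl_spinCh_eq (b : ℝ) (R : ℕ) (m : {v : ℤ × ℤ // v ∈ xyBox R} → ℤ) :
    (spinG R).spinCh b m = xyCh (latJ b (xyBox R)) m := by
  have e : xyEn (spinG R).dvec (fun _ => b) = xyEn xyBond (latJ b (xyBox R)) :=
    funext fun θ => tl_energy_eq b R θ
  unfold HGraph.spinCh xyCh xyChar xyEx xyPart xyInt
  rw [e]
  rfl

/-- L-TL-A2 (any graph).  Summation by parts: `div n = ∑_e n_e (δ_src - δ_tgt)` (`HGraph.div`, `HGraph.dvec`, `xyDel = Pi.single`; `Finset.sum_comm`). -/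
theorem hg_sbp (G : HGraph) (ψ : G.V → ℝ) (n : G.E → ℤ) :
    ∑ e, (ψ (G.src e) - ψ (G.tgt e)) * (n e : ℝ) = ∑ v, ψ v * ((G.div n v : ℤ) : ℝ) := by
  have h1 : ∀ v, ((G.div n v : ℤ) : ℝ)
      = ∑ e, (n e : ℝ) * ((if v = G.src e then 1 else 0) - (if v = G.tgt e then 1 else 0)) := by
    intro v
    unfold HGraph.div HGraph.dvec xyDel
    rw [Finset.sum_apply]
    push_cast
    refine Finset.sum_congr rfl fun e _ => ?_
    simp only [Pi.smul_apply, Pi.sub_apply, Pi.single_apply, smul_eq_mul]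
    push_cast
    rfl
  simp only [h1, Finset.mul_sum]
  rw [Finset.sum_comm]
  refine Finset.sum_congr rfl fun e _ => ?_
  have h2 : ∀ v, ψ v * ((n e : ℝ) * ((if v = G.src e then 1 else 0) - (if v = G.tgt e then 1 else 0)))
      = (if v = G.src e then ψ v * (n e : ℝ) else 0) - (if v = G.tgt e then ψ v * (n e : ℝ) else 0) := by
    intro v
    split_ifs <;> ring
  simp only [h2, Finset.sum_sub_distrib, Finset.sum_ite_eq', Finset.mem_univ, if_true]
  ring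

/-- L-TL-A2 (any system).  **Gauge with a tilt**: reindex `z ↦ z - g` (`Equiv.subRight`/`Equiv.addRight`, `Equiv.tsum_eq`), `Y (z - g) = Y z - Y g`, `Real.exp_sub`. -/
theorem wT_gauge (S : LSys) (g : S.L) (Y : S.L →+ ℝ) : S.wT (g : S.Amb) Y = Real.exp (-Y g) * S.wT 0 Y := by
  unfold LSys.wT LSys.Zf
  rw [← tsum_mul_left, ← (Equiv.addRight g).tsum_eq (fun z : S.L => Real.exp (-Y g) * (Real.exp (Y z) * S.W ((z : S.Amb) + 0)))]
  refine tsum_congr fun z => ?_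
  simp only [Equiv.coe_addRight, map_add, add_zero, AddSubgroup.coe_add]
  rw [← mul_assoc, ← Real.exp_add]
  congr 2
  ring

/-- one more term of a sum over an integer interval -/
theorem tl_sum_Ico_succ (f : ℤ → ℤ) {a b : ℤ} (h : a ≤ b) :
    ∑ x ∈ Finset.Ico a (b + 1), f x = ∑ x ∈ Finset.Ico a b, f x + f b := by
  have h1 : Finset.Ico a (b + 1) = insert b (Finset.Ico a b) := by
    ext x
    simp only [Finset.mem_Ico, Finset.mem_insert]
    omega
  rw [h1, Finset.sum_insert (by simp), add_comm]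

/-- membership of a horizontal bond -/
theorem tl_mem_bd_true (Q : Rc) (x y : ℤ) : (((x, y), true) : Bond) ∈ Q.bd ↔
    Q.o.1 ≤ x ∧ x + 1 < Q.o.1 + Q.p ∧ Q.o.2 ≤ y ∧ y < Q.o.2 + Q.q := by
  unfold Rc.bd domBonds Rc.set Bond.snd
  simp only [Finset.mem_filter, Finset.mem_product, Finset.mem_Ico, Finset.mem_univ, and_true,
    if_true, Set.mem_empty_iff_false, not_false_eq_true]
  omega

/-- membership of a vertical bond -/
theorem tl_mem_bd_false (Q : Rc) (x y : ℤ) : (((x, y), false) : Bond) ∈ Q.bd ↔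
    Q.o.1 ≤ x ∧ x < Q.o.1 + Q.p ∧ Q.o.2 ≤ y ∧ y + 1 < Q.o.2 + Q.q := by
  unfold Rc.bd domBonds Rc.set Bond.snd
  simp only [Finset.mem_filter, Finset.mem_product, Finset.mem_Ico, Finset.mem_univ, and_true,
    Bool.false_eq_true, if_false, Set.mem_empty_iff_false, not_false_eq_true]
  omega

/-- L-TL-A3 (finite, Mathlib only).  **Poincaré lemma on a rectangle.**  `h (x,y) := ∑_{o.1 ≤ x' < x} z ((x', o.2), true) + ∑_{o.2 ≤ y' < y} z ((x, y'), false)`.  Vertical bonds: by construction.  Horizontal bonds `((x,y),true)`: induction on `y` from `o.2` with `hcurl` at `(x, y)`. -/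
theorem tl_poincare (Q : Rc) (z : Bond → ℤ)
    (hcurl : ∀ v : ℤ × ℤ, (v, true) ∈ Q.bd → ((v.1, v.2 + 1), true) ∈ Q.bd →
      z (v, true) + z ((v.1 + 1, v.2), false) - z ((v.1, v.2 + 1), true) - z (v, false) = 0) :
    ∃ h : ℤ × ℤ → ℤ, ∀ e ∈ Q.bd, z e = h e.snd - h e.1 := by
  set h : ℤ × ℤ → ℤ := fun v => ∑ x' ∈ Finset.Ico Q.o.1 v.1, z ((x', Q.o.2), true)
    + ∑ y' ∈ Finset.Ico Q.o.2 v.2, z ((v.1, y'), false) with hh
  have hV : ∀ x y : ℤ, Q.o.2 ≤ y → z ((x, y), false) = h (x, y + 1) - h (x, y) := by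
    intro x y hy
    simp only [hh]
    rw [tl_sum_Ico_succ (fun y' => z ((x, y'), false)) hy]
    ring
  have hH : ∀ x : ℤ, Q.o.1 ≤ x → x + 1 < Q.o.1 + Q.p → ∀ y : ℤ, Q.o.2 ≤ y → y < Q.o.2 + Q.q →
      z ((x, y), true) = h (x + 1, y) - h (x, y) := by
    intro x hx1 hx2 y hy
    induction y, hy using Int.le_induction with
    | base =>
      intro _
      simp only [hh]
      rw [tl_sum_Ico_succ (fun x' => z ((x', Q.o.2), true)) hx1]
      simp
    | succ y hy ih =>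
      intro hy2
      have h1 := ih (by omega)
      have h2 := hcurl (x, y) ((tl_mem_bd_true Q x y).2 ⟨hx1, hx2, hy, by omega⟩)
        ((tl_mem_bd_true Q x (y + 1)).2 ⟨hx1, hx2, by omega, hy2⟩)
      simp only at h2
      have h3 := hV (x + 1) y hy
      have h4 := hV x y hy
      linarith
  refine ⟨h, ?_⟩
  rintro ⟨⟨x, y⟩, d⟩ he
  cases d with
  | true =>
    obtain ⟨a, b, c, d⟩ := (tl_mem_bd_true Q x y).1 he
    exact hH x a b y c d
  | false =>
    obtain ⟨a, b, c, d⟩ := (tl_mem_bd_false Q x y).1 he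
    exact hV x y c

/-- the divergence at a vertex with two outgoing and two incoming edges -/
theorem hg_div_four (G : HGraph) (n : G.E → ℤ) (x : G.V) (e1 e2 e3 e4 : G.E) (h12 : e1 ≠ e2) (h34 : e3 ≠ e4)
    (hs : ∀ e, G.src e = x ↔ e = e1 ∨ e = e2) (ht : ∀ e, G.tgt e = x ↔ e = e3 ∨ e = e4) :
    G.div n x = n e1 + n e2 - n e3 - n e4 := by
  have hdiv : G.div n x = ∑ e : G.E, ((if G.src e = x then n e else 0) - (if G.tgt e = x then n e else 0)) := by
    simp only [HGraph.div, HGraph.dvec, xyDel, Finset.sum_apply, Pi.smul_apply, Pi.sub_apply, Pi.single_apply, smul_eq_mul]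
    refine Finset.sum_congr rfl fun e _ => ?_
    simp only [eq_comm (a := x)]
    split_ifs <;> ring
  have h1 : ∑ e : G.E, (if G.src e = x then n e else 0) = n e1 + n e2 := by
    rw [← Finset.sum_filter]
    have hf : Finset.filter (fun e : G.E => G.src e = x) Finset.univ = {e1, e2} := by
      ext e
      simp only [Finset.mem_filter, Finset.mem_univ, true_and, Finset.mem_insert, Finset.mem_singleton, hs]
    rw [hf, Finset.sum_pair h12]
  have h2 : ∑ e : G.E, (if G.tgt e = x then n e else 0) = n e3 + n e4 := by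
    rw [← Finset.sum_filter]
    have hf : Finset.filter (fun e : G.E => G.tgt e = x) Finset.univ = {e3, e4} := by
      ext e
      simp only [Finset.mem_filter, Finset.mem_univ, true_and, Finset.mem_insert, Finset.mem_singleton, ht]
    rw [hf, Finset.sum_pair h34]
  rw [hdiv, Finset.sum_sub_distrib, h1, h2]
  ring

/-- L-TL-A4.  **Divergence = circulation.**  The edges of `spinG R` at the spin vertex `x = (v.1+1, v.2+1)`: source `x`: `(v,true)`, `((v.1+1,v.2),false)`; target `x`: `((v.1,v.2+1),true)`, `(v,false)`; no other (`sSrc`, `sTgt` are injective on each direction).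
`div n x = ∑_e n_e ([src e = x] - [tgt e = x])`. -/
theorem tl_curl (R : ℕ) (n : (spinG R).E → ℤ) (v : ℤ × ℤ) (h1 : (v, true) ∈ tlBd R) (h2 : ((v.1 + 1, v.2), false) ∈ tlBd R)
    (h3 : ((v.1, v.2 + 1), true) ∈ tlBd R) (h4 : (v, false) ∈ tlBd R) (hx : (v.1 + 1, v.2 + 1) ∈ xyBox R) :
    (spinG R).div n ⟨(v.1 + 1, v.2 + 1), hx⟩ = n ⟨_, h1⟩ + n ⟨_, h2⟩ - n ⟨_, h3⟩ - n ⟨_, h4⟩ := by
  obtain ⟨v1, v2⟩ := v
  refine hg_div_four (spinG R) n _ _ _ _ _ ?_ ?_ ?_ ?_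
  · intro h
    simpa using congrArg (fun e : {e : Bond // e ∈ tlBd R} => e.1.2) h
  · intro h
    simpa using congrArg (fun e : {e : Bond // e ∈ tlBd R} => e.1.2) h
  · rintro ⟨⟨⟨i, j⟩, d⟩, he⟩
    show ((⟨sSrc ((i, j), d), _⟩ : {v : ℤ × ℤ // v ∈ xyBox R}) = ⟨(v1 + 1, v2 + 1), hx⟩) ↔
      ((⟨((i, j), d), he⟩ : {e : Bond // e ∈ tlBd R}) = ⟨((v1, v2), true), h1⟩ ∨ (⟨((i, j), d), he⟩ : {e : Bond // e ∈ tlBd R}) = ⟨((v1 + 1, v2), false), h2⟩)
    simp only [Subtype.mk.injEq, Prod.mk.injEq]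
    cases d <;> simp [sSrc]
  · rintro ⟨⟨⟨i, j⟩, d⟩, he⟩
    show ((⟨sTgt ((i, j), d), _⟩ : {v : ℤ × ℤ // v ∈ xyBox R}) = ⟨(v1 + 1, v2 + 1), hx⟩) ↔
      ((⟨((i, j), d), he⟩ : {e : Bond // e ∈ tlBd R}) = ⟨((v1, v2 + 1), true), h3⟩ ∨ (⟨((i, j), d), he⟩ : {e : Bond // e ∈ tlBd R}) = ⟨((v1, v2), false), h4⟩)
    simp only [Subtype.mk.injEq, Prod.mk.injEq]
    cases d <;> simp [sTgt]

theorem mem_tlFree {ι : Type} {R : ℕ} {Q : ι → Rc} {e : Bond} : e ∈ tlFree R Q ↔ e ∈ tlBd R ∧ ∀ i, e ∉ (Q i).bd := by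
  unfold tlFree
  rw [Finset.mem_filter]

section

variable {ι : Type} [Fintype ι]

theorem tlQ_bd_sub (R : ℕ) (Q : ι → Rc) (hQ : ∀ i, (Q i).bd ⊆ tlBd R) (k : ι ⊕ {e : Bond // e ∈ tlFree R Q}) :
    (tlQ R Q k).bd ⊆ tlBd R := by
  rcases k with i | f
  · exact hQ i
  · intro e he
    have h1 : e ∈ (bondRc f.1).bd := he
    rw [bondRc_bd, Finset.mem_singleton] at h1
    rw [h1]
    exact (mem_tlFree.1 f.2).1

theorem tlQ_dis (R : ℕ) (Q : ι → Rc) (hdis : ∀ i j, i ≠ j → Disjoint (Q i).bd (Q j).bd) :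
    ∀ k k' : ι ⊕ {e : Bond // e ∈ tlFree R Q}, k ≠ k' → Disjoint (tlQ R Q k).bd (tlQ R Q k').bd := by
  rintro (i | f) (j | f') h
  · exact hdis i j (fun h' => h (by rw [h']))
  · rw [Finset.disjoint_left]
    intro e he he'
    have h1 : e ∈ (bondRc f'.1).bd := he'
    rw [bondRc_bd, Finset.mem_singleton] at h1
    have h2 : e ∈ (Q i).bd := he
    exact (mem_tlFree.1 f'.2).2 i (h1 ▸ h2)
  · rw [Finset.disjoint_left]
    intro e he he'
    have h1 : e ∈ (bondRc f.1).bd := he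
    rw [bondRc_bd, Finset.mem_singleton] at h1
    have h2 : e ∈ (Q j).bd := he'
    exact (mem_tlFree.1 f.2).2 j (h1 ▸ h2)
  · rw [Finset.disjoint_left]
    intro e he he'
    have h1 : e ∈ (bondRc f.1).bd := he
    have h2 : e ∈ (bondRc f'.1).bd := he'
    rw [bondRc_bd, Finset.mem_singleton] at h1 h2
    exact h (by rw [Subtype.ext (h1.symm.trans h2)])

/-- the embedding of the bonds of the pieces into the dual bonds of the box -/
def tlE (R : ℕ) (Q : ι → Rc) (hQ : ∀ i, (Q i).bd ⊆ tlBd R) (hdis : ∀ i j, i ≠ j → Disjoint (Q i).bd (Q j).bd) :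
    (Σ k, (tlQ R Q k).G.E) ↪ (spinG R).E where
  toFun x := ⟨domBond (D := (tlQ R Q x.1).set) (cut := ∅) x.2, tlQ_bd_sub R Q hQ x.1 x.2.2⟩
  inj' := by
    rintro ⟨i, e⟩ ⟨j, e'⟩ h
    have h1 : domBond (D := (tlQ R Q i).set) (cut := ∅) e = domBond (D := (tlQ R Q j).set) (cut := ∅) e' := congrArg Subtype.val h
    have hij : i = j := by
      by_contra hne
      have h2 : domBond (D := (tlQ R Q i).set) (cut := ∅) e ∈ (tlQ R Q j).bd := h1 ▸ e'.2
      exact Finset.disjoint_left.1 (tlQ_dis R Q hdis i j hne) e.2 h2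
    subst hij
    have : e = e' := Subtype.ext h1
    rw [this]

theorem tlE_surj (R : ℕ) (Q : ι → Rc) (hQ : ∀ i, (Q i).bd ⊆ tlBd R) (hdis : ∀ i j, i ≠ j → Disjoint (Q i).bd (Q j).bd) :
    Function.Surjective (tlE R Q hQ hdis) := by
  rintro ⟨e, he⟩
  by_cases h : ∀ i, e ∉ (Q i).bd
  · have hf : e ∈ tlFree R Q := mem_tlFree.2 ⟨he, h⟩
    have h1 : e ∈ (tlQ R Q (Sum.inr ⟨e, hf⟩)).bd := by
      show e ∈ (bondRc e).bd
      rw [bondRc_bd]
      exact Finset.mem_singleton_self e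
    exact ⟨⟨Sum.inr ⟨e, hf⟩, ⟨e, h1⟩⟩, Subtype.ext rfl⟩
  · push Not at h
    obtain ⟨i, hi⟩ := h
    exact ⟨⟨Sum.inl i, ⟨e, hi⟩⟩, Subtype.ext rfl⟩

/-- a current without sources inside the cells is a gradient on every piece -/
theorem tl_grad (R : ℕ) (Q : ι → Rc) (hQ : ∀ i, (Q i).bd ⊆ tlBd R) (α : (spinG R).E → ℤ)
    (hα : ∀ v : (spinG R).V, (∃ i, v.1 ∈ (Q i).inner) → (spinG R).div α v = 0) (k : ι ⊕ {e : Bond // e ∈ tlFree R Q}) :
    ∃ h : ℤ × ℤ → ℤ, ∀ (e : Bond) (he : e ∈ (tlQ R Q k).bd), α ⟨e, tlQ_bd_sub R Q hQ k he⟩ = h e.snd - h e.1 := by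
  rcases k with i | f
  · obtain ⟨h, hh⟩ := tl_poincare (Q i) (fun e => if he : e ∈ tlBd R then α ⟨e, he⟩ else 0) (by
      intro v hv1 hv3
      have m1 := mem_bd.1 hv1
      have m3 := mem_bd.1 hv3
      have hv2 : ((v.1 + 1, v.2), false) ∈ (Q i).bd := mem_bd.2 ⟨m1.2, m3.2⟩
      have hv4 : (v, false) ∈ (Q i).bd := mem_bd.2 ⟨m1.1, m3.1⟩
      have hx : (v.1 + 1, v.2 + 1) ∈ xyBox R := (Finset.mem_filter.1 (hQ i hv1)).2.1
      have hin : (v.1 + 1, v.2 + 1) ∈ (Q i).inner := by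
        have a1 := fr_mem_set.1 m1.1
        have a2 := fr_mem_set.1 m3.2
        simp only [Bond.snd, if_true] at a1 a2
        refine ⟨?_, ?_, ?_, ?_⟩ <;> simp only <;> omega
      have h0 := hα ⟨_, hx⟩ ⟨i, hin⟩
      rw [tl_curl R α v (hQ i hv1) (hQ i hv2) (hQ i hv3) (hQ i hv4) hx] at h0
      simp only [dif_pos (hQ i hv1), dif_pos (hQ i hv2), dif_pos (hQ i hv3), dif_pos (hQ i hv4)]
      exact h0)
    refine ⟨h, fun e he => ?_⟩
    have h1 := hh e he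
    rwa [dif_pos (hQ i he)] at h1
  · refine ⟨fun u => if u = f.1.snd then α ⟨f.1, (mem_tlFree.1 f.2).1⟩ else 0, fun e he => ?_⟩
    have h1 : e ∈ (bondRc f.1).bd := he
    rw [bondRc_bd, Finset.mem_singleton] at h1
    subst h1
    have h2 : ∀ e : Bond, e.1 ≠ e.snd := by
      rintro ⟨⟨i, j⟩, d⟩
      cases d <;> simp [Bond.snd]
    simp [h2]

/-- the refinement "pieces → currents" -/
def tlRef (b : ℝ) (R : ℕ) (Q : ι → Rc) (hQ : ∀ i, (Q i).bd ⊆ tlBd R) (hdis : ∀ i j, i ≠ j → Disjoint (Q i).bd (Q j).bd) :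
    LSys.Ref (cutS b (tlQ R Q)) ((spinG R).flowSys b) where
  iE := tlE R Q hQ hdis
  iO := ⟨fun x => x.2.elim, fun x => x.2.elim⟩
  hb := fun _ => rfl
  map_mem := by
    intro z hz k
    have hz' : (spinG R).div z.1 = 0 := hz
    obtain ⟨h, hh⟩ := tl_grad R Q hQ z.1 (fun v _ => by rw [hz']; rfl) k
    exact (fr_mem_L (tlQ R Q k) b _).2 ⟨h, fun e => hh _ e.2⟩

/-- L-TL-A5.  **The refinement "pieces → currents".**  `iE ⟨k, e⟩ := ⟨e, _⟩` (cells: `hQ`; single bonds: `bondRc_bd`), injective by `hdis` and the definition of the second family; `iO` from the empty type; `hb` by `rfl`.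
(1) `res (α,0) ∈ L` iff every component is a gradient (`fr_mem_L`): single bonds: always (`h = α_e` at the second end point); cells: `tl_poincare` for `z e = α ⟨e,_⟩` (extended by `0`), `hcurl` from `tl_curl`: if `(v,true), ((v.1,v.2+1),true) ∈ (Q i).bd` then the four bonds lie in `(Q i).bd` and
`(v.1+1,v.2+1) ∈ (Q i).inner`.  `map_mem` of the `Ref` is (1) for `div α = 0`.   (2) the pieces partition `tlBd R`: `Fintype.sum_sigma`, `Fintype.sum_sum_type`, `Finset.sum_coe_sort`; `flowX` carries `2π`. -/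
theorem tl_ref (b : ℝ) (R : ℕ) (Q : ι → Rc) (hQ : ∀ i, (Q i).bd ⊆ tlBd R) (hdis : ∀ i j, i ≠ j → Disjoint (Q i).bd (Q j).bd) :
    ∃ r : LSys.Ref (cutS b (tlQ R Q)) ((spinG R).flowSys b),
      (∀ α : (spinG R).E → ℤ, (∀ v : (spinG R).V, (∃ i, v.1 ∈ (Q i).inner) → (spinG R).div α v = 0) →
        r.res (show ((spinG R).flowSys b).Amb from (α, 0)) ∈ (cutS b (tlQ R Q)).L) ∧
      ∀ (t : Bond → ℝ) (α : (spinG R).E → ℤ) (h : r.res (show ((spinG R).flowSys b).Amb from (α, 0)) ∈ (cutS b (tlQ R Q)).L),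
        cutX b (tlQ R Q) t ⟨_, h⟩ = 2 * Real.pi * ∑ e : (spinG R).E, t e.1 * (α e : ℝ) := by
  refine ⟨tlRef b R Q hQ hdis, ?_, ?_⟩
  · intro α hα k
    obtain ⟨h, hh⟩ := tl_grad R Q hQ α hα k
    exact (fr_mem_L (tlQ R Q k) b _).2 ⟨h, fun e => hh _ e.2⟩
  · intro t α h
    change (∑ k, ((tlQ R Q k).flowX b t).comp (piPr (fun k => (tlQ R Q k).sys b) k)) (⟨_, h⟩ : (pi fun k => (tlQ R Q k).sys b).L) = _
    simp only [AddMonoidHom.finsetSum_apply, AddMonoidHom.comp_apply]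
    have h1 : ∀ k, (tlQ R Q k).flowX b t (piPr (fun k => (tlQ R Q k).sys b) k ⟨_, h⟩)
        = ∑ e : (tlQ R Q k).G.E, 2 * Real.pi * t (tlE R Q hQ hdis ⟨k, e⟩).1 * ((α (tlE R Q hQ hdis ⟨k, e⟩) : ℤ) : ℝ) := fun k => rfl
    simp only [h1]
    rw [← Fintype.sum_sigma' (fun k (e : (tlQ R Q k).G.E) => 2 * Real.pi * t (tlE R Q hQ hdis ⟨k, e⟩).1 * ((α (tlE R Q hQ hdis ⟨k, e⟩) : ℤ) : ℝ)),
      Finset.mul_sum]
    exact Fintype.sum_bijective (tlE R Q hQ hdis) ⟨(tlE R Q hQ hdis).injective, tlE_surj R Q hQ hdis⟩ _ _ fun x => by ring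

/-- L-TL-A6.  The current system is proper (`O = Empty`: `Rsd.kit_ok_of_map` as in `Rsd.hlaw_ok_of_isEmpty`, or `Rsd.kit_ok_of_le` with the standard basis of `ℤ^E`). -/
theorem tl_flow_ok (G : HGraph) (b : ℝ) (hb : 0 < b) : (G.flowSys b).Ok := by
  set g : (G.E → ℤ) →+ (G.flowSys b).Amb := AddMonoidHom.inl (G.E → ℤ) (Empty → ℝ) with hg
  refine Rsd.kit_ok_of_map (G.flowSys b) (fun _ => hb) ((G.flowSys b).L.comap g) g
    (LinearMap.inl ℝ (G.E → ℝ) (Empty → ℝ)) ?_ ?_ ?_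
  · intro c
    rfl
  · intro x _ hx
    exact congrArg Prod.fst hx
  · refine (AddSubgroup.map_comap_eq_self_of_surjective ?_ _).symm
    intro z
    exact ⟨z.1, Prod.ext rfl (funext fun o => o.elim)⟩

/-- L-TL-A6.  `pi_mgf`, `Fintype.prod_sum_type`; cells: `exp (lmgf) = E0 exp` (`Real.exp_log`, positivity: `rd_E0_exp`, `lsys_pos`); single bonds: `fr_lmgf_ref`, `bondRc_bd`, `2π · rw ψ e = rot ψ e`; `Real.exp_sum`, `Finset.sum_coe_sort`/`Finset.sum_subtype`. -/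
theorem tl_mgf (b : ℝ) (hb : 0 < b) (R : ℕ) (Q : ι → Rc) (ψ : ℤ × ℤ → ℝ) :
    (cutS b (tlQ R Q)).E0 (fun z => Real.exp (cutX b (tlQ R Q) (rw ψ) z)) ≤
      Real.exp (∑ i, (Q i).lmgf b (rw ψ) + ∑ e ∈ tlFree R Q, b * (Real.cosh (rot ψ e) - 1)) := by
  have e1 : (fun z : (cutS b (tlQ R Q)).L => Real.exp (cutX b (tlQ R Q) (rw ψ) z)) =
      fun z => Real.exp (∑ k, ((tlQ R Q k).flowX b (rw ψ)) (piPr (fun k => (tlQ R Q k).sys b) k z)) := by
    funext z
    unfold cutX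
    rw [AddMonoidHom.finsetSum_apply]
    rfl
  have e2 := pi_mgf (fun k => (tlQ R Q k).sys b) (fun k => fr_ok _ b hb) (fun k => (tlQ R Q k).flowX b (rw ψ))
  have e3 : ∀ k, ((tlQ R Q k).sys b).E0 (fun z => Real.exp ((tlQ R Q k).flowX b (rw ψ) z)) =
      Real.exp ((tlQ R Q k).lmgf b (rw ψ)) := fun k => (Real.exp_log (fr_mgf_pos _ b hb _)).symm
  rw [e1]
  unfold cutS
  rw [e2]
  simp only [e3]
  rw [← Real.exp_sum, Fintype.sum_sum_type]
  apply Real.exp_le_exp.2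
  refine add_le_add le_rfl ?_
  rw [← Finset.sum_coe_sort (tlFree R Q)]
  refine Finset.sum_le_sum fun e _ => ?_
  show (bondRc e.1).lmgf b (rw ψ) ≤ _
  refine (fr_lmgf_ref _ b hb _).trans (le_of_eq ?_)
  rw [bondRc_bd, Finset.sum_singleton]
  unfold rw
  rw [mul_div_cancel₀ _ (by positivity)]

theorem tl_tilt_eval (R : ℕ) (ψ : ℤ × ℤ → ℝ) (α : (spinG R).E → ℤ) :
    2 * Real.pi * ∑ e : (spinG R).E, rw ψ e.1 * (α e : ℝ) = ∑ v : (spinG R).V, ψ v.1 * (((spinG R).div α v : ℤ) : ℝ) := by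
  rw [← hg_sbp (spinG R) (fun v => ψ v.1) α, Finset.mul_sum]
  refine Finset.sum_congr rfl fun e _ => ?_
  have h1 : rw ψ e.1 = (ψ (sSrc e.1) - ψ (sTgt e.1)) / (2 * Real.pi) := by
    unfold rw
    rw [rot_eq]
  rw [h1]
  have hpi : (2 * Real.pi) ≠ 0 := by positivity
  show 2 * Real.pi * ((ψ (sSrc e.1) - ψ (sTgt e.1)) / (2 * Real.pi) * (α e : ℝ)) = (ψ (sSrc e.1) - ψ (sTgt e.1)) * (α e : ℝ)
  field_simp

theorem tl_tilt_del {V : Type} [DecidableEq V] (X Y v : V) (h1 : v ≠ X) (h2 : v ≠ Y) :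
    (xyDel X - xyDel Y) v = 0 := by
  simp only [xyDel, Pi.sub_apply, Pi.single_apply, if_neg h1, if_neg h2, sub_zero]

theorem tl_tilt_sum {V : Type} [Fintype V] [DecidableEq V] (f : V → ℝ) (X Y : V) :
    ∑ v, f v * (((xyDel X - xyDel Y) v : ℤ) : ℝ) = f X - f Y := by
  simp only [xyDel, Pi.sub_apply, Pi.single_apply, Int.cast_sub, mul_sub, Finset.sum_sub_distrib]
  simp

/-- L-TL-A7.  **THE TILT INEQUALITY.**  Assembly, see the header. -/
theorem tl_tilt (b : ℝ) (hb : 0 < b) (R : ℕ) (x y : ℤ × ℤ) (hx : x ∈ xyBox R) (hy : y ∈ xyBox R) (ψ : ℤ × ℤ → ℝ)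
    (Q : ι → Rc) (hQ : ∀ i, (Q i).bd ⊆ tlBd R) (hdis : ∀ i j, i ≠ j → Disjoint (Q i).bd (Q j).bd)
    (hsrc : ∀ i, x ∉ (Q i).inner ∧ y ∉ (Q i).inner) :
    latTwo b (xyBox R) x y ≤ Real.exp (ψ y - ψ x + ∑ i, (Q i).lmgf b (rw ψ)
      + ∑ e ∈ tlFree R Q, b * (Real.cosh (rot ψ e) - 1)) := by
  obtain ⟨m, hm⟩ : ∃ m : (spinG R).V → ℤ, m = xyDel (⟨x, hx⟩ : {v : ℤ × ℤ // v ∈ xyBox R}) - xyDel ⟨y, hy⟩ := ⟨_, rfl⟩
  have e1 : latTwo b (xyBox R) x y = (spinG R).spinCh b m := by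
    refine Eq.trans ?_ (tl_spinCh_eq b R m).symm
    rw [hm]
    unfold latTwo
    rw [dif_pos ⟨hx, hy⟩]
    rfl
  rw [e1]
  by_cases hα : ∃ α : (spinG R).E → ℤ, (spinG R).div α = m
  swap
  · rw [xy_flow_ratio _ b hb.le]
    have h0 : (spinG R).flowSum b m = 0 := by
      unfold HGraph.flowSum
      have : IsEmpty {n : (spinG R).E → ℤ // (spinG R).div n = m} := ⟨fun n => hα ⟨n.1, n.2⟩⟩
      exact tsum_empty
    rw [h0, zero_div]
    exact (Real.exp_pos _).le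
  obtain ⟨α, hαm⟩ := hα
  rw [← hαm, xy_duality_lsys _ b hb.le α]
  obtain ⟨r, hr1, hr2⟩ := tl_ref b R Q hQ hdis
  have hS : (cutS b (tlQ R Q)).Ok := cutS_ok b hb _
  have hF : ((spinG R).flowSys b).Ok := tl_flow_ok _ b hb
  obtain ⟨Y, hY⟩ : ∃ Y, Y = cutX b (tlQ R Q) (rw ψ) := ⟨_, rfl⟩
  have hmono := lsys_ratio_mono r hS hF (show ((spinG R).flowSys b).Amb from (α, 0)) Y
  -- the tilt vanishes on the divergence free currents
  have hY0 : Y.comp r.psi = 0 := by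
    ext z
    have hz : (z : ((spinG R).flowSys b).Amb) = (show ((spinG R).flowSys b).Amb from ((z : ((spinG R).flowSys b).Amb).1, 0)) :=
      Prod.ext rfl (funext fun o => o.elim)
    have hdiv : (spinG R).div (z : ((spinG R).flowSys b).Amb).1 = 0 := z.2
    have hmem : r.res (show ((spinG R).flowSys b).Amb from ((z : ((spinG R).flowSys b).Amb).1, 0)) ∈ (cutS b (tlQ R Q)).L := by
      rw [← hz]
      exact (r.psi z).2
    have h3 := (hr2 (rw ψ) (z : ((spinG R).flowSys b).Amb).1 hmem).trans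
      (tl_tilt_eval R ψ (z : ((spinG R).flowSys b).Amb).1)
    rw [hdiv] at h3
    have h4 : r.psi z = ⟨_, hmem⟩ := by
      apply Subtype.ext
      exact congrArg r.res hz
    rw [AddMonoidHom.comp_apply, h4, hY, h3]
    simp
  rw [hY0, rd_wT_zero] at hmono
  refine hmono.trans ?_
  -- no source is enclosed
  have hmem : r.res (show ((spinG R).flowSys b).Amb from (α, 0)) ∈ (cutS b (tlQ R Q)).L := by
    refine hr1 α fun v hv => ?_
    obtain ⟨i, hi⟩ := hv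
    rw [hαm, hm]
    have h1 : v ≠ ⟨x, hx⟩ := fun h => (hsrc i).1 (by rw [h] at hi; exact hi)
    have h2 : v ≠ ⟨y, hy⟩ := fun h => (hsrc i).2 (by rw [h] at hi; exact hi)
    exact tl_tilt_del _ _ v h1 h2
  have hg := wT_gauge (cutS b (tlQ R Q)) ⟨_, hmem⟩ Y
  have hval : Y ⟨_, hmem⟩ = ψ x - ψ y := by
    rw [hY, hr2 (rw ψ) α hmem, tl_tilt_eval, hαm, hm]
    exact tl_tilt_sum (V := {v : ℤ × ℤ // v ∈ xyBox R}) (fun v => ψ v.1) ⟨x, hx⟩ ⟨y, hy⟩
  rw [hval] at hg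
  have hg' : (cutS b (tlQ R Q)).wT (r.res (show ((spinG R).flowSys b).Amb from (α, 0))) Y
      = Real.exp (-(ψ x - ψ y)) * (cutS b (tlQ R Q)).wT 0 Y := hg
  rw [hg', mul_div_assoc, ← rd_E0_exp, hY]
  have hmgf := tl_mgf b hb R Q ψ
  calc Real.exp (-(ψ x - ψ y)) * (cutS b (tlQ R Q)).E0 (fun z => Real.exp (cutX b (tlQ R Q) (rw ψ) z))
      ≤ Real.exp (-(ψ x - ψ y)) * Real.exp (∑ i, (Q i).lmgf b (rw ψ) + ∑ e ∈ tlFree R Q, b * (Real.cosh (rot ψ e) - 1)) :=
        mul_le_mul_of_nonneg_left hmgf (Real.exp_pos _).le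
    _ = _ := by
        rw [← Real.exp_add]
        congr 1
        ring

end

end

end Claimed.Agent.R285.Tilt
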